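import Vale.Agent.P197.Saxl.Main
import Vale.Agent.P197.Saxl.Module
import Vale.Agent.P197.Saxl.Irreducible

/-!
# P197: the Saxl conjecture

For every `m` the tensor square of the irreducible module of the staircase partition
`(m, m - 1, …, 1)` contains every irreducible representation of the symmetric group on
`m (m + 1) / 2` points.
-/

namespace Vale.Agent.Results.P197.SaxlConjecture

open Vale.Agent.P197.Saxl

theorem result (m : ℕ) :
    Fintype.card (Cell m) = m * (m + 1) / 2 ∧ (spechtRep m).IsIrreducible ∧
      ∀ (V : Type) [AddCommGroup V] [Module ℂ V]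
        (σ : Representation ℂ (Equiv.Perm (Cell m)) V), σ.IsIrreducible →
        ∃ f : σ.IntertwiningMap ((spechtRep m).tprod (spechtRep m)),
          Function.Injective f := by
  refine ⟨card_cell_eq m, isIrreducible_staircaseRep m, fun V _ _ σ hσ => ?_⟩
  exact exists_injective_of_good m (fun W _ _ ρ hW => good_all m W ρ hW) σ

end Vale.Agent.Results.P197.SaxlConjecture
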